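import Vale.Agent.P275XS.Mv
import Vale.Agent.P275HB.Hit
import Vale.Agent.P275Z.RHF

/-! Moving the removable pole keeps the Hitchin map, the Hodge relation and the monodromy. -/

set_option linter.all false

open scoped Topology Matrix.Norms.Operator Manifold ContDiff
open Set Filter Metric Matrix
open Vale.Agent.P275GC Vale.Agent.P275MO Vale.Agent.P275MM
open Vale.Agent.P275NA (Fm Cy Mn)
open Vale.Agent.P275NP (agr_ea)
open Vale.Agent.P275NU (NuR)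
open Vale.Agent.P275HN (hB hV)
open Vale.Agent.P275Z (tauX RHD DR)

noncomputable section

namespace Vale.Agent.P275XS

variable {C : Type} [TopologicalSpace C] {n : ℕ} {A : At C} {l : Cy A ℂ} {c : C}
  {y y' : Mod A l (tauX n)}

theorem nuR_mvp (h : NuR y y') (c : C) : NuR (mvp c y) (mvp c y') := by
  obtain ⟨a, -, r, h1, h2, g, g', b, k, G, b', e, e', f1, f2, f3⟩ := h
  exact ⟨(mvp_lam y).trans a, (mvp_x y').trans (mvp_x y).symm, r, h1, h2, g, g', b, k, G, b',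
    cl_mvp e c, cl_mvp e' c, f1, f2, (mvp_lam (c := c) y').symm ▸ f3⟩

theorem hV_ty {τ τ' : Ty n} (hH : τ.H ≤ τ'.H) (hq : τ.q ≤ τ'.q) (y : Mod A l τ) :
    hV (P275MB.ty hH hq y) = hV y := by
  obtain ⟨z, rfl⟩ := pt_surj y
  rfl

/-- the monodromy does not depend on the position of the removable pole -/
theorem psi_mvp {g : ℕ} {d : ℤ} (R : RHD A l g n d) (hτ) {i : Fin R.N}
    (hy : y ∈ DR A l d (tauX n) (R.V i)) (hy' : mvp c y ∈ DR A l d (tauX n) (R.V i)) :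
    (R.Ψ (tauX n) hτ i ⟨_, hy'⟩).2 = (R.Ψ (tauX n) hτ i ⟨y, hy⟩).2 := by
  obtain ⟨z, rfl⟩ := pt_surj y
  obtain ⟨r, h1, h2, G⟩ := P275MB.Ob.ex z
  obtain ⟨⟨ρ, a⟩, b⟩ := R.spec _ hτ i z hy
  obtain ⟨⟨ρ', a'⟩, b'⟩ := R.spec _ hτ i (mvo (Dc_cov A c).choose_spec z) hy'
  obtain ⟨p, e, -, f⟩ := b ρ a
  obtain ⟨p', e', -, f'⟩ := b' ρ' a'
  obtain ⟨h, d, k⟩ := R.mov i _ _ ρ ρ' r h1 h2 a a' (R0 z) rfl rfl fun k w u _ => agr_ea G k w u
  refine f'.trans (.trans (Quot.sound ⟨h, trivial, d, ?_, ?_⟩).symm f.symm)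
  · rw [e, e', R0, R0, Matrix.mul_zero, Matrix.zero_mul]
  · rwa [e, e']

theorem mem_DR {d : ℤ} {V V' : Set C} (hy : y ∈ DR A l d (tauX n) V) (hc : c ∈ V') :
    mvp c y ∈ DR A l d (tauX n) V' :=
  ⟨(mvp_lam y).trans hy.1, (mvp_x y).symm ▸ hc, by rw [R0, ← R0 y.rep]; exact hy.2.2⟩

variable [ChartedSpace ℂ C]

theorem hB_ty {τ τ' : Ty n} (hH : τ.H ≤ τ'.H) (hq : τ.q ≤ τ'.q) (y : Mod A l τ) :
    hB (P275MB.ty hH hq y) = hB y := by
  obtain ⟨z, rfl⟩ := pt_surj y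
  rfl

theorem hB_mvp [T2Space C] [PreconnectedSpace C] [IsManifold 𝓘(ℂ) ω C] (ok : P275AD.Ok A)
    (h0 : y.lam = 0) (c : C) : hB (mvp c y) = hB y := by
  obtain ⟨z, rfl⟩ := pt_surj y
  obtain ⟨r, h1, h2, G⟩ := P275MB.Ob.ex z
  have hk := (Dc_cov A c).choose_spec
  exact P275HB.hB_eq (y := mvo hk z) ok (good_mvk (A := A.res r h1 h2) G (R0 z) (Dc_src h1 h2 hk))
    h0 rfl fun k i w a => (P275HB.hB_spec ok G h0 (R0 z)).2 k i w a.1

end Vale.Agent.P275XS
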