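import Vale.Agent.P275NP.Rep
import Vale.Agent.P275NU.Rel
import Vale.Agent.P275MM.Cmp
import Vale.Agent.P275CC.Tw

/-! A removable pole can be moved: the moduli space without pole is a product with the curve. -/

set_option linter.all false

open scoped Topology Matrix.Norms.Operator
open Set Filter Metric Matrix
open Vale.Agent.P275GC Vale.Agent.P275GC.At Vale.Agent.P275MO Vale.Agent.P275MM
open Vale.Agent.P275NA (Fm Cy Mn Sub)
open Vale.Agent.P275NP (ea agr_ea hl_ea con_of_agr fam_ea)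
open Vale.Agent.P275NU (Cl Con)
open Vale.Agent.P275AD (hx_eq ev_off eq_of_ev pn)
open Vale.Agent.P275Z (tauX)
open Vale.Agent.P281Z.Hm (an_mul an_mulVec)
open P275CC

noncomputable section

namespace Vale.Agent.P275XS

variable {C : Type} [TopologicalSpace C] {n : ℕ} {A : At C} {l : Cy A ℂ} {i k k' : Fin A.N}
  {w : ℂ} {c c' : C} {z z' : Dat C A.N n} {φ : Fm A (Mn n)} {h : Mn n}

/-- the object `z` with the pole at `c` and the frame of the chart `k` -/
def mvk (A : At C) (c : C) (k : Fin A.N) (z : Dat C A.N n) : Dat C A.N n :=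
  ⟨z.lam, c, z.g, ea A z, fun i => z.g i k (A.e i c), 0⟩

theorem cc_l (g : Good A l z) : A.Cc l :=
  ⟨fun i j => (g.cc.det.hol i j).congr fun w a => (g.det i j w a).symm, fun i w a => by
    rw [← g.det i i w (O_self a), g.cc.one i w a, det_one], fun i j k w a b => by
    rw [← g.det i k w b, ← g.det i j w a, ← g.det j k _ (tr_O a b), g.cc.mul i j k w a b,
      Matrix.det_mul]⟩

theorem con_ea (g : Good A l z) (hR : z.R = 0) : Con A l z.lam z.g (ea A z) :=
  con_of_agr g (cc_l g) (agr_ea g) (hl_ea g hR)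

theorem g_mul (g : A.Cc z.g) (a : c ∈ (A.e i).source) (b : c ∈ (A.e k).source)
    (d : c ∈ (A.e k').source) : z.g i k' (A.e i c) = z.g i k (A.e i c) * z.g k k' (A.e k c) := by
  rw [g.mul i k k' _ (mem_O a b) (mem_O a d), tr_e a]

theorem good_mvk (g : Good A l z) (hR : z.R = 0) (hc : c ∈ (A.e k).source) :
    Good A l (mvk A c k z) := P275NU.good_of_con (con_ea g hR)
  (fun _ a => g.cc.det.ne (mem_O a hc)) fun _ _ a b => g_mul g.cc a b hc

theorem ea_mvk (g : Good A l z) (hR : z.R = 0) (hw : w ∈ ball (0 : ℂ) A.R) :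
    ea A (mvk A c k z) i w = ea A z i w :=
  hx_eq ((hl_ea g hR).an hw i).continuousAt EventuallyEq.rfl

theorem invC_iff (g : Good A l z) (hR : z.R = 0) {m : ℕ} {S : Fm A (Submodule ℂ (Fin n → ℂ))}
    (hS : Sub A z.g m S) : InvC A z S ↔ ∀ i, ∀ w ∈ ball (0 : ℂ) A.R, ∀ s : ℂ → Fin n → ℂ,
      AnalyticAt ℂ s w → (∀ᶠ y in 𝓝 w, s y ∈ S i y) →
        z.lam • deriv s w + ea A z i w *ᵥ s w ∈ S i w := by
  refine ⟨fun f i w hw s a b => ?_, fun f i w hw s a b => agr_ea g i w hw ▸ f i w hw.1 s a b⟩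
  obtain ⟨t, ht⟩ := hS.fr i w hw
  refine P275KR.fr_mem ht (u := fun y => z.lam • deriv s y + ea A z i y *ᵥ s y)
    ((a.deriv.continuousAt.const_smul z.lam).add
      (an_mulVec ((hl_ea g hR).an hw i) a).continuousAt) ?_
  filter_upwards [ev_off (i := i) z.x hw, pn a.eventually_analyticAt, pn b.eventually_nhds]
    with y e1 e2 e3
  exact (agr_ea g i y e1).symm ▸ f i y e1 s e2 e3

theorem stab_mvk (g : Good A l z) (hR : z.R = 0) (hc : c ∈ (A.e k).source) :
    Stab A l (mvk A c k z) ↔ Stab A l z := by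
  have : ∀ m S, Sub A z.g m S → (InvC A (mvk A c k z) S ↔ InvC A z S) := fun m S hS => by
    rw [invC_iff (good_mvk g hR hc) rfl hS, invC_iff g hR hS]
    exact forall₃_congr fun i w hw => by rw [ea_mvk g hR hw]; rfl
  exact ⟨fun s m S a b d f => s m S a b d ((this m S d).2 f),
    fun s m S a b d f => s m S a b d ((this m S d).1 f)⟩

theorem con_ext (g : Good A l z) (hR : z.R = 0) (g' : Good A l z') (hR' : z'.R = 0)
    (f : Hom A z z' φ) (hw : w ∈ ball (0 : ℂ) A.R) :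
    z.lam • deriv (φ i) w + ea A z' i w * φ i w = φ i w * ea A z i w := by
  have p := f.hol.an hw i
  refine eq_of_ev (f := fun y => z.lam • deriv (φ i) y + ea A z' i y * φ i y)
    (g := fun y => φ i y * ea A z i y) ((p.deriv.continuousAt.const_smul z.lam).add
      (an_mul ((hl_ea g' hR').an hw i) p).continuousAt)
    (an_mul p ((hl_ea g hR).an hw i)).continuousAt ((ev_off (i := i) z.x hw).mono fun y e => ?_)
  simp only [agr_ea g i y e, agr_ea g' i y (f.x ▸ e), f.con i y e]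

theorem isoBy_mvk (g : Good A l z) (hR : z.R = 0) (g' : Good A l z') (hR' : z'.R = 0)
    (f : IsoBy A z z' φ h) (hc : c ∈ (A.e k).source) (hc' : c ∈ (A.e k').source) :
    IsoBy A (mvk A c k' z) (mvk A c k z') φ (φ k (A.e k c) * z.g k k' (A.e k c)) :=
  ⟨⟨f.lam, rfl, f.hol, f.law, fun _ _ a => con_ext g hR g' hR' f.toHom a.1⟩, f.det,
    fun i (a : c ∈ (A.e i).source) => by
    have := f.law i k _ (mem_O a hc)
    rw [tr_e a] at this
    show φ i (A.e i c) * z.g i k' (A.e i c) = z'.g i k (A.e i c) * _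
    rw [g_mul g.cc a hc hc', ← Matrix.mul_assoc, this, Matrix.mul_assoc]⟩

theorem isoBy_self (g : Good A l z) (hc : z.x ∈ (A.e k).source) :
    IsoBy A z (mvk A z.x k z) (fun _ _ => 1) (z.σ k) :=
  ⟨⟨rfl, rfl, fun _ => differentiableOn_const _, fun _ _ _ _ => by simp [mvk], fun i w a => by
    simp [mvk, agr_ea g i w a, P275MB.dconst]⟩, fun _ _ _ => by simp, fun i a => by
    simpa [mvk] using g.frc i k a hc⟩

theorem isoBy_mv2 (g : Good A l z) (hR : z.R = 0) :
    IsoBy A (mvk A c k (mvk A c' k' z)) (mvk A c k z) (fun _ _ => 1) 1 :=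
  ⟨⟨rfl, rfl, fun _ => differentiableOn_const _, fun _ _ _ _ => by simp [mvk], fun i w a => by
    simpa [mvk, P275MB.dconst] using (ea_mvk (c := c') (k := k') g hR a.1).symm⟩,
    fun _ _ _ => by simp, fun i a => by simp [mvk]⟩

theorem isoBy_sc (g : Good A l z) (hR : z.R = 0) (s : ℂ) :
    IsoBy A (mvk A c k (z.smul s)) ((mvk A c k z).smul s) (fun _ _ => 1) 1 :=
  ⟨⟨rfl, rfl, fun _ => differentiableOn_const _, fun _ _ _ _ => by simp [mvk, Dat.smul],
    fun i w a => by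
      have : ea A (z.smul s) i w = s • ea A z i w :=
        hx_eq (((hl_ea g hR).an a.1 i).continuousAt.const_smul s)
          ((ev_off (i := i) z.x a.1).mono fun y e => congrArg (s • ·) (agr_ea g i y e).symm)
      simpa [mvk, Dat.smul, P275MB.dconst] using this.symm⟩, fun _ _ _ => by simp,
    fun i a => by simp [mvk, Dat.smul]⟩

section fam

variable {T : Type} [TopologicalSpace T] {F : T → Dat C A.N n} {V : Set T} {γ : T → C} {t : T}

theorem famOn_mvk [T2Space C] (f : FamOn A l F V) (hR : ∀ t ∈ V, (F t).R = 0)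
    (hγ : ContinuousOn γ V) (hk : ∀ t ∈ V, γ t ∈ (A.e k).source) :
    FamOn A l (fun t => mvk A (γ t) k (F t)) V :=
  ⟨fun t a => good_mvk (f.good t a) (hR t a) (hk t a), f.lam, hγ, continuousOn_const, f.g,
    fun i => (fam_ea f hR i).mono fun _ a => ⟨a.1, a.2.1⟩, fun i =>
    (f.g i k).comp (f := fun t => (t, A.e i (γ t))) (continuousOn_id.prodMk
      ((A.e i).continuousOn.comp (hγ.mono fun _ a => a.1) fun _ a => a.2))
      fun t a => ⟨a.1, mem_O a.2 (hk t a.1)⟩⟩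

theorem famAt_mvk [T2Space C] (f : FamAt A l F t) (hR : ∀ᶠ s in 𝓝 t, (F s).R = 0)
    (hγ : ∀ᶠ s in 𝓝 t, ContinuousAt γ s) (hk : γ t ∈ Dc A k) :
    FamAt A l (fun t => mvk A (γ t) k (F t)) t := by
  obtain ⟨r, h1, h2, V, hV, f⟩ := f
  exact ⟨r, h1, h2, _, inter_mem hV (hR.and (hγ.and (hγ.self_of_nhds.eventually
    ((Dc_open k).mem_nhds hk)))), famOn_mvk (A := A.res r h1 h2)
    (P275MB.FamOn.sub f inter_subset_left) (fun _ a => a.2.1)
    (fun _ a => a.2.2.1.continuousWithinAt) fun _ a => Dc_src h1 h2 a.2.2.2⟩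

end fam

theorem isOb_mvk {q q' : Submodule ℂ (Mn n)} (o : IsOb A l q z) (hR : z.R = 0) (hc : c ∈ Dc A k) :
    IsOb A l q' (mvk A c k z) := by
  obtain ⟨⟨r, h1, h2, g, s⟩, -⟩ := o
  exact ⟨⟨r, h1, h2, good_mvk (A := A.res r h1 h2) g hR (Dc_src h1 h2 hc),
    (stab_mvk (A := A.res r h1 h2) g hR (Dc_src h1 h2 hc)).2 s⟩, q'.zero_mem⟩

theorem ib_mvk (g : Gd A l z) (hR : z.R = 0) (g' : Gd A l z') (hR' : z'.R = 0)
    (f : IB A z z' φ h) (hc : c ∈ Dc A k) (hc' : c ∈ Dc A k') :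
    IB A (mvk A c k' z) (mvk A c k z') φ (φ k (A.e k c) * z.g k k' (A.e k c)) := by
  obtain ⟨r, a, b, g⟩ := g
  obtain ⟨r', a', b', g'⟩ := g'
  obtain ⟨r'', a'', b'', f⟩ := f
  have d := lt_min (lt_min a a') a''
  have e := ((min_le_left (min r r') r'').trans (min_le_left _ _)).trans b
  exact ⟨_, d, e, isoBy_mvk (A := A.res _ d e)
    (P275MB.Good.mono g d ((min_le_left _ _).trans (min_le_left _ _))) hR
    (P275MB.Good.mono g' d ((min_le_left _ _).trans (min_le_right _ _))) hR'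
    (P275MB.IsoBy.mono f d (min_le_right _ _)) (Dc_src d e hc) (Dc_src d e hc')⟩

theorem R0 (y : Ob A l (tauX n)) : y.1.R = 0 := (Submodule.mem_bot ℂ).1 y.2.2

/-- the object with the pole at `c` -/
def mvo (hc : c ∈ Dc A k) (y : Ob A l (tauX n)) : Ob A l (tauX n) :=
  ⟨mvk A c k y.1, isOb_mvk y.2 (R0 y) hc⟩

theorem iso_mvo (hc : c ∈ Dc A k) (hc' : c ∈ Dc A k') {y y' : Ob A l (tauX n)}
    (f : Iso A (tauX n).H y.1 y'.1) : Iso A (tauX n).H (mvo hc' y).1 (mvo hc y').1 := by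
  obtain ⟨φ, h, -, f⟩ := iso_iff_ib.1 f
  exact iso_iff_ib.2 ⟨φ, _, trivial, ib_mvk (Gd.of y.2) (R0 y) (Gd.of y'.2) (R0 y') f hc hc'⟩

/-- the pole is moved to `c` -/
def mvp (c : C) : Mod A l (tauX n) → Mod A l (tauX n) :=
  Quot.map (mvo (Dc_cov A c).choose_spec) fun _ _ f => iso_mvo _ _ f

theorem mvp_pt (hc : c ∈ Dc A k) (y : Ob A l (tauX n)) : mvp c y.pt = (mvo hc y).pt :=
  Quot.sound (iso_mvo hc _ (P275MB.iso_refl _))

variable (y : Mod A l (tauX n))

theorem mvp_x : (mvp c y).x = c := by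
  obtain ⟨z, rfl⟩ := pt_surj y
  rfl

theorem mvp_lam : (mvp c y).lam = y.lam := by
  obtain ⟨z, rfl⟩ := pt_surj y
  rfl

theorem mvp_self : mvp y.x y = y := by
  obtain ⟨z, rfl⟩ := pt_surj y
  obtain ⟨r, h1, h2, g⟩ := P275MB.Ob.ex z
  exact (Quot.sound ⟨r, h1, h2, _, _, trivial, isoBy_self (A := A.res r h1 h2) g
    (Dc_src h1 h2 (Dc_cov A z.1.x).choose_spec)⟩).symm

theorem mvp_of {y : Mod A l (tauX n)} (e : y.x = c) : mvp c y = y := e ▸ mvp_self y

theorem mvp_mvp : mvp c (mvp c' y) = mvp c y := by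
  obtain ⟨z, rfl⟩ := pt_surj y
  obtain ⟨r, h1, h2, g⟩ := P275MB.Ob.ex z
  exact Quot.sound ⟨r, h1, h2, _, _, trivial, isoBy_mv2 (A := A.res r h1 h2) g (R0 z)⟩

theorem mvp_sc (s : ℂˣ) : mvp c (P275MB.sc s y) = P275MB.sc s (mvp c y) := by
  obtain ⟨z, rfl⟩ := pt_surj y
  obtain ⟨r, h1, h2, g⟩ := P275MB.Ob.ex z
  exact Quot.sound ⟨r, h1, h2, _, _, trivial, isoBy_sc (A := A.res r h1 h2) g (R0 z) s⟩

variable {y}

theorem cl_mvp {r : ℝ} {h1 : 1 < r} {h2 : r ≤ A.R} {g : Cy A (Mn n)} {a : Fm A (Mn n)}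
    (f : Cl y r h1 h2 g a) (c : C) : Cl (mvp c y) r h1 h2 g a := by
  obtain ⟨f, z, rfl, G, rfl, e⟩ := f
  obtain ⟨k, hk⟩ := Dc_cov A c
  refine ⟨f, mvo hk z, (mvp_pt hk z).symm, good_mvk (A := A.res r h1 h2) G (R0 z)
    (Dc_src h1 h2 hk), rfl, fun i w b => hx_eq (f.hol.an b.1 i).continuousAt ?_⟩
  exact (ev_off (A := A.res r h1 h2) (i := i) z.1.x b.1).mono fun y b => e i y b

/-- two points have the same underlying bundle with connection -/
theorem mvp_eq_iff {y' : Mod A l (tauX n)} : mvp c y = mvp c y' ↔ y' = mvp y'.x y :=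
  ⟨fun e => by rw [← mvp_mvp (c' := c), e, mvp_mvp, mvp_self], fun e => by rw [e, mvp_mvp]⟩

variable [T2Space C]

theorem cont_mvp : Continuous fun p : C × Mod A l (tauX n) => mvp p.1 p.2 := by
  have := A.compactSpace
  refine P275MB.continuous_of_fam2 fun T _ F t c f => ?_
  obtain ⟨k, hk⟩ := Dc_cov A c
  refine contAt_of_fam (F := fun q : C × T => mvk A q.1 k (F q.2).1) (famAt_mvk
    (P275MB.FamAt.comp (u := Prod.snd) (s := (c, t)) f (.of_forall fun _ => continuousAt_snd))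
    (.of_forall fun q => R0 _) (.of_forall fun _ => continuousAt_fst) hk) ?_
  filter_upwards [continuousAt_fst.eventually ((Dc_open k).mem_nhds hk)] with q a
  exact ⟨_, (mvp_pt a (F q.2)).symm⟩

theorem cont_mvp' {T : Type*} [TopologicalSpace T] {γ : T → C} {f : T → Mod A l (tauX n)}
    (hγ : Continuous γ) (hf : Continuous f) : Continuous fun t => mvp (γ t) (f t) :=
  cont_mvp.comp (hγ.prodMk hf)

variable (A l n)

/-- the Hodge moduli space -/
abbrev XH (p : C) : Type := {y : Mod A l (tauX n) // y.x = p}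

/-- the projection to the Hodge moduli space -/
def toH (p : C) : C(Mod A l (tauX n), XH n A l p) :=
  ⟨fun y => ⟨mvp p y, mvp_x y⟩, (cont_mvp' continuous_const continuous_id).subtype_mk _⟩

/-- **XSPLIT** -/
def xs (p : C) : Mod A l (tauX n) ≃ₜ XH n A l p × C where
  toFun y := (toH n A l p y, y.x)
  invFun q := mvp q.2 q.1.1
  left_inv y := (mvp_mvp y).trans (mvp_self y)
  right_inv q := Prod.ext (Subtype.ext ((mvp_mvp _).trans (mvp_of q.1.2))) (mvp_x _)
  continuous_toFun := (toH n A l p).continuous.prodMk P275MB.cont_x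
  continuous_invFun := cont_mvp' continuous_snd (continuous_subtype_val.comp continuous_fst)

variable {A l n}

theorem toH_val (p : C) (y : Mod A l (tauX n)) : (toH n A l p y).1 = mvp p y := rfl

theorem toH_inc {p : C} (y : XH n A l p) : toH n A l p y.1 = y := Subtype.ext (mvp_of y.2)

theorem proper_toH (p : C) : IsProperMap (toH n A l p) := by
  have := A.compactSpace
  exact isProperMap_fst_of_compactSpace.comp (xs n A l p).isProperMap

section sys

variable {T : Type} [TopologicalSpace T] (S : Sys A l (tauX n) T) (γ : C(T, C))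

/-- the graph of `γ` -/
def gr : C(T, T × C) := ⟨fun t => (t, γ t), continuous_id.prodMk γ.continuous⟩

theorem S_R {a : S.ι} {t : T} (m : t ∈ S.U a) : (S.F a t).R = 0 := R0 ⟨_, S.ob a t m⟩

/-- the system with the poles moved to `γ t` -/
def mvS [Hy A l n] : Sys A l (tauX n) T where
  toCov := S.cv.pb (gr γ)
  f t := mvp (γ t) (S.f t)
  F p t := mvk A (γ t) p.2 (S.F p.1 t)
  fam p t m := famAt_mvk (S.fam _ t m.1)
    (eventually_of_mem ((S.op _).mem_nhds m.1) fun _ a => S_R S a)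
    (.of_forall fun _ => γ.continuous.continuousAt) m.2
  ob p t m := isOb_mvk (S.ob _ t m.1) (S_R S m.1) m.2
  pt p t m := (mvp_pt m.2 ⟨_, S.ob _ t m.1⟩).symm.trans (congrArg _ (S.pt _ t m.1))
  Φ p p' := S.Φ p.1 p'.1
  h p p' t := S.G p p' (t, γ t)
  lf p p' := ⟨fun _ _ => trivial, fun t m => ib_mvk (S.gd m.2.1) (S_R S m.2.1) (S.gd m.1.1)
      (S_R S m.1.1) (S.ib m.1.1 m.2.1) m.1.2 m.2.2,
    fun i => ((S.lf p.1 p'.1).cΦ i).mono fun _ m => ⟨⟨m.1.1.1, m.1.2.1⟩, m.2⟩,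
    (S.ct_G p p').comp (gr γ).continuous.continuousOn fun _ m => m⟩

variable [Hy A l n]

theorem mvS_f (t : T) : (mvS S γ).f t = mvp (γ t) (S.f t) := rfl

theorem mvS_fr : (mvS S γ).fr = S.tb.pb (gr γ) := rfl

theorem mvS_tb : (mvS S γ).tb = (S.ref (S.cv.pb (gr γ)) Prod.fst fun _ _ m => m.1).tb := rfl

theorem mvS_iso : (mvS S γ).tb.Iso S.tb :=
  S.ref_tb (S.cv.pb (gr γ)) Prod.fst fun _ _ m => m.1

/-- the universal bundle does not see the pole -/
theorem end_iso_mv {S S' : Sys A l (tauX n) T} (e : ∀ t, mvp (S'.f t).x (S.f t) = S'.f t) :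
    S.tb.End.Iso S'.tb.End :=
  (mvS_iso S ⟨_, P275MB.cont_x.comp S'.cont⟩).li.End.symm.trans (Sys.end_iso (funext e))

end sys

end Vale.Agent.P275XS
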